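import Vale.Agent.P167.H411.B7.Scale
import Vale.Agent.P167.H542.Dat0

/-!
# P167, general `q`, [S_pow]: the basic bump

`bb s`: the bump of mass one with support in the ball of radius `s / 5` around `(3 / 2) s I`.
-/

open Set Metric Filter Topology MeasureTheory
open scoped ContDiff

namespace Vale.Agent.P167.H167.P

open Vale.Agent.P167.H411.B7 (Shp scb)
open Vale.Agent.P167.CA (cms cl cs mem_cl)
open Vale.Agent.P167.H542.Dt (cms_ne cms_abs_le)

/-- The bump function. -/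
noncomputable def cb1 : ContDiffBump ((3 / 4 : ℝ) * Complex.I : ℂ) where
  rIn := 9 / 100
  rOut := 1 / 10
  rIn_pos := by norm_num
  rIn_lt_rOut := by norm_num

/-- The shape. -/
noncomputable def χ1 (z : ℂ) : ℝ := cb1.normed volume z

theorem χ1_nonneg (z : ℂ) : 0 ≤ χ1 z := cb1.nonneg_normed z

theorem χ1_le (z : ℂ) : χ1 z ≤ 40 := by
  have h := cb1.normed_le_div_measure_closedBall_rIn volume (x := z)
  refine h.trans ?_
  have e : volume.real (closedBall ((3 / 4 : ℝ) * Complex.I : ℂ) cb1.rIn) =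
      (9 / 100) ^ 2 * Real.pi := by
    rw [Measure.real, Complex.volume_closedBall]
    have : cb1.rIn = 9 / 100 := rfl
    rw [this, ENNReal.toReal_mul, ENNReal.toReal_pow, ENNReal.toReal_ofReal (by norm_num)]
    rfl
  rw [e, div_le_iff₀ (by positivity)]
  have := Real.pi_gt_d2
  nlinarith

theorem χ1_tsupport : tsupport χ1 = closedBall ((3 / 4 : ℝ) * Complex.I : ℂ) (1 / 10) :=
  cb1.tsupport_normed_eq

theorem χ1_box {z : ℂ} (h : z ∈ tsupport χ1) : |z.re| ≤ 1 / 10 ∧ |z.im - 3 / 4| ≤ 1 / 10 := by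
  rw [χ1_tsupport, mem_closedBall, dist_eq_norm] at h
  have h1 := (Complex.abs_re_le_norm _).trans h
  have h2 := (Complex.abs_im_le_norm _).trans h
  simp only [Complex.sub_re, Complex.sub_im, Complex.re_ofReal_mul, Complex.im_ofReal_mul,
    Complex.I_re, Complex.I_im, mul_zero, mul_one, sub_zero] at h1 h2
  exact ⟨h1, h2⟩

theorem shp1 : Shp Complex.I χ1 := by
  refine ⟨cb1.contDiff_normed, fun z hz => ?_, χ1_nonneg, cb1.integral_normed⟩
  obtain ⟨h1, h2⟩ := χ1_box hz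
  rw [abs_le] at h1 h2
  refine ⟨?_, ?_⟩
  · rw [mem_closedBall_zero_iff]
    refine (Complex.norm_le_abs_re_add_abs_im z).trans ?_
    have e1 : |z.re| ≤ 1 / 10 := abs_le.2 h1
    have e2 : |z.im| ≤ 85 / 100 := abs_le.2 ⟨by linarith, by linarith⟩
    linarith
  · show 0 < (z * (starRingEnd ℂ) Complex.I).re
    rw [Complex.conj_I]
    simp only [mul_neg, Complex.neg_re, Complex.mul_re, Complex.I_re, mul_zero, Complex.I_im,
      mul_one, zero_sub, neg_neg]
    linarith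

/-- The bump of scale `s`. -/
noncomputable def bb (s : ℝ) : ℂ → ℝ := scb χ1 0 (2 * s)

variable {s : ℝ}

theorem bb_nonneg (s : ℝ) (z : ℂ) : 0 ≤ bb s z := div_nonneg (χ1_nonneg _) (by positivity)

theorem bb_le (hs : 0 < s) (z : ℂ) : |bb s z| ≤ 10 / s ^ 2 := by
  rw [abs_of_nonneg (bb_nonneg s z)]
  unfold bb scb
  rw [div_le_div_iff₀ (by positivity) (by positivity)]
  have := χ1_le ((z - 0) / ((2 * s : ℝ) : ℂ))
  nlinarith [mul_le_mul_of_nonneg_right this (sq_nonneg s)]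

theorem bb_box (hs : 0 < s) {z : ℂ} (h : bb s z ≠ 0) :
    |z.re| ≤ s / 5 ∧ 13 / 10 * s ≤ z.im ∧ z.im ≤ 17 / 10 * s := by
  have h1 : χ1 ((z - 0) / ((2 * s : ℝ) : ℂ)) ≠ 0 := fun h0 => h (by unfold bb scb; rw [h0, zero_div])
  obtain ⟨h2, h3⟩ := χ1_box (subset_tsupport _ h1)
  rw [sub_zero, Complex.div_ofReal_re, abs_div, abs_of_pos (by positivity : 0 < 2 * s),
    div_le_iff₀ (by positivity)] at h2
  rw [sub_zero, Complex.div_ofReal_im, abs_le] at h3
  have h4 : 13 / 20 * (2 * s) ≤ z.im := by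
    rw [← le_div_iff₀ (by positivity)]; linarith
  have h5 : z.im ≤ 17 / 20 * (2 * s) := by
    rw [← div_le_iff₀ (by positivity)]; linarith
  exact ⟨by linarith, by linarith, by linarith⟩

theorem bb_mass (hs : 0 < s) : ∫ z, bb s z = 1 := by
  unfold bb
  rw [H411.B7.scb_mass χ1 0 (by positivity)]
  exact shp1.mass

/-- The support of the lattice bump. -/
theorem lb_box (hs : 0 < s) {n : ℕ} (hn : 0 < n) {w : ℤ × ℤ} (h : cms (bb s) (1 / n) w ≠ 0) :
    |(w.1 : ℝ)| ≤ s * n / 5 + 1 ∧ 13 / 10 * (s * n) ≤ w.2 ∧ (w.2 : ℝ) ≤ 17 / 10 * (s * n) + 1 := by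
  obtain ⟨u, hu, h1⟩ := cms_ne h
  obtain ⟨h2, h3, h4⟩ := bb_box hs h1
  have hn' : (0 : ℝ) < n := by exact_mod_cast hn
  rw [mem_cl] at hu
  unfold CA.cs at hu
  have k1 : w.1 = ⌊u.re * n⌋ + 1 := by rw [← hu]
  have k2 : w.2 = ⌊u.im * n⌋ + 1 := by rw [← hu]
  have a1 := Int.floor_le (u.re * n)
  have a2 := Int.lt_floor_add_one (u.re * n)
  have a3 := Int.floor_le (u.im * n)
  have a4 := Int.lt_floor_add_one (u.im * n)
  rw [abs_le] at h2
  have b1 := mul_le_mul_of_nonneg_right h2.1 hn'.le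
  have b2 := mul_le_mul_of_nonneg_right h2.2 hn'.le
  have b3 := mul_le_mul_of_nonneg_right h3 hn'.le
  have b4 := mul_le_mul_of_nonneg_right h4 hn'.le
  rw [k1, k2]
  push_cast
  refine ⟨abs_le.2 ⟨by linarith, by linarith⟩, by linarith, by linarith⟩

end Vale.Agent.P167.H167.P
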