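import Vale.Agent.P167.H411.Q.As1
import Vale.Agent.P153.R2.R1.Jordan

/-!
# P167, general `q`, [S_pow]: the rectangle `(-1, 1) × (0, 1)`

The flat point is the origin (a vertex of the lattice polygon with a straight angle), the base point is
`1 / 2 + I` on the top side.
-/

namespace Vale.Agent.P167.H167.P

open Metric Filter Topology
open Vale.Agent.P167.E6 (IsPolygon Encloses pt dir face)
open Vale.Agent.P167.CA (Dat)
open Vale.Agent.P167.BVP (Flat)
open Vale.Agent.P153.R2.R1 (IsU)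

/-- The vertices. -/
def pv : Fin 6 → ℤ × ℤ := ![(1, 1), (0, 1), (-1, 1), (-1, 0), (0, 0), (1, 0)]

/-- The polygon. -/
def p0 : ZMod 6 → ℤ × ℤ := pv

/-- The cells. -/
def Q0 : Finset (ℤ × ℤ) := {(-1, 0), (0, 0)}

theorem poly0 : IsPolygon p0 := by
  refine ⟨by norm_num, ?_, ?_⟩
  · intro i j h
    revert i j
    decide
  · intro i
    revert i
    decide

theorem enc0 : Encloses p0 Q0 := by
  intro v r
  constructor
  · rintro ⟨i, rfl, h⟩
    revert i r
    decide
  · rintro ⟨h1, h2⟩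
    have h3 : v ∈ ({(-1, 0), (0, 0), (1, 0), (-1, 1), (0, 1), (1, 1)} : Finset (ℤ × ℤ)) := by
      unfold face Q0 at h1
      rw [Finset.mem_insert, Finset.mem_singleton] at h1
      obtain ⟨x, y⟩ := v
      fin_cases r <;> simp [Prod.ext_iff] at h1 ⊢ <;> omega
    simp only [Finset.mem_insert, Finset.mem_singleton] at h3
    rcases h3 with rfl | rfl | rfl | rfl | rfl | rfl <;> revert r <;> decide

/-- **The rectangle.** -/
noncomputable def S0 : Dat where
  l := 6
  p := p0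
  Q := Q0
  poly := poly0
  enc := enc0
  r := 2
  step := by decide
  tp := 1 / 2
  tp0 := by norm_num
  tp1 := by norm_num

theorem region0 : E6.region 1 Q0 = Set.Icc (-1) 1 ×ℂ Set.Icc 0 1 := by
  ext z
  rw [Complex.mem_reProdIm, Set.mem_Icc, Set.mem_Icc]
  unfold E6.region Q0
  simp only [Finset.mem_insert, Finset.mem_singleton, exists_eq_or_imp, exists_eq_left, one_mul,
    Set.mem_setOf_eq, Int.cast_neg, Int.cast_one, Int.cast_zero]
  constructor
  · rintro (h | h)
    · exact ⟨⟨by linarith [h.1], by linarith [h.2.1]⟩, by linarith [h.2.2.1], by linarith [h.2.2.2]⟩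
    · exact ⟨⟨by linarith [h.1], by linarith [h.2.1]⟩, by linarith [h.2.2.1], by linarith [h.2.2.2]⟩
  · rintro ⟨⟨h1, h2⟩, h3, h4⟩
    rcases le_total z.re 0 with h | h
    · left; exact ⟨by linarith, by linarith, by linarith, by linarith⟩
    · right; exact ⟨by linarith, by linarith, by linarith, by linarith⟩

theorem mem_P0 {z : ℂ} : z ∈ S0.P ↔ (-1 < z.re ∧ z.re < 1) ∧ 0 < z.im ∧ z.im < 1 := by
  show z ∈ interior (E6.region 1 Q0) ↔ _
  rw [region0, Complex.interior_reProdIm, interior_Icc, interior_Icc, Complex.mem_reProdIm,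
    Set.mem_Ioo, Set.mem_Ioo]

/-- The origin is a flat point. -/
theorem flat0 : Flat S0.P 0 Complex.I 1 := by
  refine ⟨Complex.norm_I, one_pos, fun z hz => ?_⟩
  rw [mem_ball_zero_iff] at hz
  have h1 := abs_lt.1 ((Complex.abs_re_le_norm z).trans_lt hz)
  have h2 := abs_lt.1 ((Complex.abs_im_le_norm z).trans_lt hz)
  rw [mem_P0, sub_zero, Complex.conj_I]
  simp only [mul_neg, Complex.neg_re, Complex.mul_re, Complex.I_re, mul_zero, Complex.I_im,
    mul_one, zero_sub, neg_neg]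
  constructor
  · exact fun h => h.2.1
  · exact fun h => ⟨h1, h, h2.2⟩

theorem bp0 : S0.bp = ⟨1 / 2, 1⟩ := by
  show pt (p0 0) + ((1 / 2 : ℝ) : ℂ) * pt (dir 2) = _
  have e1 : p0 0 = (1, 1) := rfl
  have e2 : dir 2 = (-1, 0) := rfl
  rw [e1, e2]
  apply Complex.ext
  · simp [pt]; norm_num
  · simp [pt]

theorem bp0_off : S0.bp ∉ ball (0 : ℂ) 1 := by
  rw [mem_ball_zero_iff, bp0, not_lt]
  have := Complex.abs_im_le_norm (⟨1 / 2, 1⟩ : ℂ)
  simpa using this

theorem zero_frontier : (0 : ℂ) ∈ frontier S0.P := by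
  rw [H411.Q.frontier_P]
  refine ⟨((4 : ℤ) : ℝ) + 0, ?_⟩
  rw [H411.Q.bpt_side S0 4 le_rfl zero_le_one]
  have e1 : S0.p ((4 : ℤ) : ZMod S0.l) = (0, 0) := rfl
  rw [e1]
  apply Complex.ext <;> simp [pt]

theorem bp_frontier : S0.bp ∈ frontier S0.P := by
  rw [H411.Q.frontier_P]
  exact ⟨_, H411.Q.bpt_bp S0⟩

/-- The conformal map. -/
theorem exists_psi : ∃ ψ, IsU ψ S0.P 0 S0.bp ∧ Set.InjOn ψ {z | 0 ≤ z.im} := by
  have hG : Vale.Agent.P153.R2.R1.Good S0.P := E6.good_D6 one_pos S0.poly S0.enc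
  refine hG.exists_isU ⟨⟨0, 1 / 2⟩, ?_⟩ zero_frontier bp_frontier ?_
  · rw [mem_P0]
    norm_num
  · rw [bp0]
    intro h
    have := congrArg Complex.im h
    norm_num at this

end Vale.Agent.P167.H167.P
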