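import Vale.Agent.P167.H411.B7.Ca
import Vale.Agent.P167.H411.B7.Main
import Vale.Agent.P167.CA.Sym
import Vale.Agent.P167.H167.P.Bmp

/-!
# P167, general `q`, [S_pow]: the energies of the bumps at the flat point `0`

`en_pair`: `(bb s, N bb t) = - (1 / π) log (max s t) + O(1)`, uniformly in `s, t`. `en_bd`: the energy of a
finite combination.
-/

open Set Metric Filter Topology MeasureTheory
open scoped ContDiff ComplexConjugate

namespace Vale.Agent.P167.H167.P

open Vale.Agent.P153.R2.R1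
open Vale.Agent.P167.H411.B7
open Vale.Agent.P167.BVP (Flat Test lpot npot)

/-! ### finite combinations -/

/-- Finite combinations. -/
noncomputable def cmb {m : ℕ} (c : Fin m → ℝ) (f : Fin m → ℂ → ℝ) (z : ℂ) : ℝ := ∑ i, c i * f i z

theorem cmb_zero (c : Fin 0 → ℝ) (f : Fin 0 → ℂ → ℝ) : cmb c f = fun _ => 0 := by
  funext z
  simp [cmb]

theorem cmb_succ {m : ℕ} (c : Fin (m + 1) → ℝ) (f : Fin (m + 1) → ℂ → ℝ) :
    cmb c f = fun z => 1 * cmb (fun i => c i.castSucc) (fun i => f i.castSucc) z +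
      c (Fin.last m) * f (Fin.last m) z := by
  funext z
  rw [one_mul]
  exact Fin.sum_univ_castSucc _

theorem test_zero {D : Set ℂ} : Test D fun _ => (0 : ℝ) := by
  refine ⟨contDiff_const, HasCompactSupport.zero, ?_⟩
  rw [tsupport, Function.support_fun_zero, closure_empty]
  exact empty_subset _

theorem test_cmb {D : Set ℂ} {m : ℕ} (c : Fin m → ℝ) {f : Fin m → ℂ → ℝ} (hf : ∀ i, Test D (f i)) :
    Test D (cmb c f) := by
  induction m with
  | zero => rw [cmb_zero]; exact test_zero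
  | succ m ih =>
    rw [cmb_succ]
    exact test_lin (ih _ fun i => hf _) (hf _) 1 _

section en

variable {D : Set ℂ} {g : ℂ → ℂ}

theorem npot_zero' (g : ℂ → ℂ) (z : ℂ) : npot g (fun _ => 0) z = 0 := by
  simp [npot]

theorem en_cmb_right (hg : BVP.Conf D g) {h : ℂ → ℝ} (hh : Test D h) {m : ℕ} (c : Fin m → ℝ)
    {f : Fin m → ℂ → ℝ} (hf : ∀ i, Test D (f i)) : en g h (cmb c f) = ∑ i, c i * en g h (f i) := by
  induction m with
  | zero =>
    rw [cmb_zero]
    simp [en, npot_zero']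
  | succ m ih =>
    rw [cmb_succ, en_lin_right hg hh (test_cmb _ fun i => hf _) (hf _), ih _ fun i => hf _, one_mul,
      Fin.sum_univ_castSucc]

theorem en_cmb_left (hg : BVP.Conf D g) {h : ℂ → ℝ} (hh : Test D h) {m : ℕ} (c : Fin m → ℝ)
    {f : Fin m → ℂ → ℝ} (hf : ∀ i, Test D (f i)) : en g (cmb c f) h = ∑ i, c i * en g (f i) h := by
  induction m with
  | zero =>
    rw [cmb_zero]
    simp [en]
  | succ m ih =>
    rw [cmb_succ, en_lin_left hg (test_cmb _ fun i => hf _) (hf _) hh, ih _ fun i => hf _, one_mul,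
      Fin.sum_univ_castSucc]

theorem en_cmb (hg : BVP.Conf D g) {m : ℕ} (c : Fin m → ℝ) {f : Fin m → ℂ → ℝ}
    (hf : ∀ i, Test D (f i)) :
    en g (cmb c f) (cmb c f) = ∑ i, ∑ j, c i * c j * en g (f i) (f j) := by
  rw [en_cmb_left hg (test_cmb c hf) c hf]
  refine Finset.sum_congr rfl fun i _ => ?_
  rw [en_cmb_right hg (hf i) c hf, Finset.mul_sum]
  refine Finset.sum_congr rfl fun j _ => ?_
  ring

end en

/-! ### two bumps -/

theorem bb_scale {s t : ℝ} (hs : 0 < s) (ht : 0 < t) : bb s = scb (scb χ1 0 (s / t)) 0 (2 * t) := by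
  funext z
  unfold bb scb
  have h1 : (t : ℂ) ≠ 0 := by exact_mod_cast ht.ne'
  have h2 : (s : ℂ) ≠ 0 := by exact_mod_cast hs.ne'
  have e : (z - 0) / ((2 * s : ℝ) : ℂ) = ((z - 0) / ((2 * t : ℝ) : ℂ) - 0) / ((s / t : ℝ) : ℂ) := by
    push_cast
    field_simp
    ring
  rw [e, div_div]
  congr 1
  field_simp

theorem smooth_scb {χ : ℂ → ℝ} (h : ContDiff ℝ ∞ χ) (l : ℝ) : ContDiff ℝ ∞ (scb χ 0 l) := by
  unfold scb
  exact (h.comp (by fun_prop)).div_const _

theorem supp_scb1 {l : ℝ} (h0 : 0 < l) : tsupport (scb χ1 0 l) ⊆ closedBall 0 l := by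
  intro z hz
  have h1 := shp1.supp (tsupport_scb 0 hz)
  have h2 := h1.1
  rw [mem_closedBall_zero_iff, sub_zero, norm_div, Complex.norm_real, Real.norm_eq_abs, abs_of_pos h0,
    div_le_iff₀ h0, one_mul] at h2
  rwa [mem_closedBall_zero_iff]

theorem cpt_scb1 {l : ℝ} (h0 : 0 < l) : HasCompactSupport (scb χ1 0 l) :=
  (isCompact_closedBall 0 l).of_isClosed_subset (isClosed_tsupport _) (supp_scb1 h0)

/-- The logarithmic potential of the shape is bounded near the unit disc. -/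
theorem exists_lpot : ∃ B : ℝ, 0 ≤ B ∧ ∀ z : ℂ, ‖z‖ ≤ 1 → |lpot χ1 z| ≤ B := by
  have hc := (BVP.lpot_contDiff shp1.smooth shp1.compact).continuous
  obtain ⟨B, hB⟩ := (isCompact_closedBall (0 : ℂ) 1).exists_bound_of_continuousOn hc.continuousOn
  refine ⟨max B 0, le_max_right _ _, fun z hz => ?_⟩
  have := hB z (mem_closedBall_zero_iff.2 hz)
  rw [Real.norm_eq_abs] at this
  exact this.trans (le_max_left _ _)

theorem JJ_small {B : ℝ} (hB : ∀ z : ℂ, ‖z‖ ≤ 1 → |lpot χ1 z| ≤ B) {l : ℝ}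
    (h0 : 0 < l) (h1 : l ≤ 1) : |JJ 0 Complex.I (scb χ1 0 l) χ1| ≤ 2 * B := by
  have hi : Integrable (scb χ1 0 l) :=
    (smooth_scb shp1.smooth l).continuous.integrable_of_hasCompactSupport (cpt_scb1 h0)
  have h2 : |JJ 0 Complex.I (scb χ1 0 l) χ1| ≤ ∫ z, scb χ1 0 l z * (2 * B) := by
    unfold JJ
    rw [← Real.norm_eq_abs]
    refine norm_integral_le_of_norm_le (hi.mul_const _) (Eventually.of_forall fun z => ?_)
    have hn : 0 ≤ scb χ1 0 l z := div_nonneg (χ1_nonneg _) (by positivity)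
    rw [norm_mul, Real.norm_of_nonneg hn, Real.norm_eq_abs]
    by_cases hz : z ∈ tsupport (scb χ1 0 l)
    · have hz1 : ‖z‖ ≤ 1 := (mem_closedBall_zero_iff.1 (supp_scb1 h0 hz)).trans h1
      have e : rfn 0 Complex.I z = conj z := by
        rw [rfn_I, sub_zero, zero_add]
      have hz2 : ‖rfn 0 Complex.I z‖ ≤ 1 := by rw [e, RCLike.norm_conj]; exact hz1
      refine mul_le_mul_of_nonneg_left ((abs_add_le _ _).trans ?_) hn
      linarith [hB z hz1, hB _ hz2]
    · rw [image_eq_zero_of_notMem_tsupport hz, zero_mul, zero_mul]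
  rw [integral_mul_const, scb_mass χ1 0 h0, shp1.mass, one_mul] at h2
  exact h2

section pair

variable {ψ : ℂ → ℂ} {P : Set ℂ} {p : ℂ} {r : ℝ}

theorem bb_bp (hF : Flat P 0 Complex.I r) {s : ℝ} (hs : 0 < s) (hr : 2 * s < r) :
    Bp P 0 (2 * s) (bb s) := shp1.bp hF (by positivity) hr

theorem bb_bp' (hF : Flat P 0 Complex.I r) {s t : ℝ} (hs : 0 < s) (hst : s ≤ t) (hr : 2 * t < r) :
    Bp P 0 (2 * t) (bb s) := by
  have h := bb_bp hF hs (by linarith)
  exact ⟨h.test, h.supp.trans (closedBall_subset_closedBall (by linarith)), h.nonneg, h.mass⟩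

/-- **The energy of two bumps.** -/
theorem en_pair (h : IsU ψ P 0 p) (hinj : InjOn ψ {z | 0 ≤ z.im}) (hF : Flat P 0 Complex.I r)
    (hp : p ∉ ball 0 r) : ∃ Ce : ℝ, 0 ≤ Ce ∧ ∀ s t : ℝ, 0 < s → 0 < t → 2 * s ≤ r / 8400 →
      2 * t ≤ r / 8400 → |en (ginv ψ) (bb s) (bb t) + 1 / Real.pi * Real.log (max s t)| ≤ Ce := by
  obtain ⟨G, hX⟩ := exists_ext h hinj hF hp
  have hg := ginv_conf h hinj
  have hr := hF.pos
  have h0 : ginv ψ 0 = ((0 : ℝ) : ℂ) := by
    have h1 : ψ 0 = 0 := h.zero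
    have h2 := ginv_apply hinj (w := 0) (by simp)
    rw [h1] at h2
    rw [h2, Complex.ofReal_zero]
  have hd := hX.hasDeriv h hinj hF hp
  rw [h0] at hd
  set d : ℂ := (deriv G 0)⁻¹ with hd_def
  have hψ0 : ψ ((0 : ℝ) : ℂ) = 0 := by rw [Complex.ofReal_zero, h.zero]
  obtain ⟨B, hB0, hB⟩ := exists_lpot
  have hpi := Real.pi_pos
  have key : ∀ s t : ℝ, 0 < s → s ≤ t → 2 * t ≤ r / 8400 →
      |en (ginv ψ) (bb s) (bb t) + 1 / Real.pi * Real.log t| ≤
        |Real.log ‖d‖| + (1 + B) + 1 := by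
    intro s t hs hst ht
    have ht0 : 0 < t := hs.trans_le hst
    have hlt : 2 * t < r := by linarith
    have k := en_bb h hinj hF hp ht (bb_bp' hF hs hst hlt) (bb_bp hF ht0 hlt) hψ0 hd
    have e1 : JJ 0 Complex.I (bb s) (bb t) = 2 * Real.log (2 * t) +
        JJ 0 Complex.I (scb χ1 0 (s / t)) χ1 := by
      have hl : 0 < s / t := by positivity
      rw [bb_scale hs ht0, show bb t = scb χ1 0 (2 * t) from rfl,
        JJ_scb (smooth_scb shp1.smooth _) (cpt_scb1 hl) shp1.smooth shp1.compact 0 Complex.I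
          (by positivity), scb_mass χ1 0 hl, shp1.mass]
      ring
    have e2 := JJ_small hB (l := s / t) (by positivity) ((div_le_one ht0).2 hst)
    set J := JJ 0 Complex.I (scb χ1 0 (s / t)) χ1 with hJ
    rw [e1, Real.log_mul two_ne_zero ht0.ne'] at k
    have hηr : 2700 * (2 * t / r) ≤ 1 := by
      rw [mul_div_assoc', div_le_one hr]; linarith
    have e3 : en (ginv ψ) (bb s) (bb t) + 1 / Real.pi * Real.log t =
        (en (ginv ψ) (bb s) (bb t) + 1 / (2 * Real.pi) * (-2 * Real.log ‖d‖ +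
          (2 * (Real.log 2 + Real.log t) + J))) + 1 / Real.pi * Real.log ‖d‖ -
          1 / Real.pi * (Real.log 2 + J / 2) := by
      field_simp
      ring
    have p1 : |1 / Real.pi| ≤ 1 := by
      rw [abs_of_pos (by positivity), div_le_one Real.pi_pos]; linarith [Real.pi_gt_three]
    have a2 : |1 / Real.pi * Real.log ‖d‖| ≤ |Real.log ‖d‖| := by
      rw [abs_mul]
      exact mul_le_of_le_one_left (abs_nonneg _) p1
    have a3 : |1 / Real.pi * (Real.log 2 + J / 2)| ≤ 1 + B := by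
      rw [abs_mul]
      refine (mul_le_of_le_one_left (abs_nonneg _) p1).trans ((abs_add_le _ _).trans ?_)
      have l2 : |Real.log 2| ≤ 1 := by
        rw [abs_of_pos (Real.log_pos one_lt_two)]
        linarith [Real.log_two_lt_d9]
      have l3 : |J / 2| ≤ B := by
        rw [abs_div, abs_two]; linarith
      linarith
    rw [e3]
    rw [abs_le] at k a2 a3 ⊢
    constructor <;> linarith [k.1, k.2, a2.1, a2.2, a3.1, a3.2]
  refine ⟨|Real.log ‖d‖| + (1 + B) + 1, by positivity, fun s t hs ht hs' ht' => ?_⟩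
  rcases le_total s t with hst | hst
  · rw [max_eq_right hst]
    exact key s t hs hst ht'
  · rw [max_eq_left hst]
    have h1 := key t s ht hst hs'
    have h2 := CA.en_symm hg (bb_bp hF hs (by linarith)).test (bb_bp hF ht (by linarith)).test
    rw [en_eq] at h2
    rwa [h2]

/-- **The energy of a finite combination.** -/
theorem en_bd (h : IsU ψ P 0 p) (hinj : InjOn ψ {z | 0 ≤ z.im}) (hF : Flat P 0 Complex.I r)
    (hp : p ∉ ball 0 r) : ∃ Ce : ℝ, 0 ≤ Ce ∧ ∀ (m : ℕ) (c s : Fin m → ℝ), (∀ i, 0 < s i) →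
      (∀ i, 2 * s i ≤ r / 8400) →
      |CA.en (ginv ψ) (cmb c fun i => bb (s i)) (cmb c fun i => bb (s i)) +
        1 / Real.pi * ∑ i, ∑ j, c i * c j * Real.log (max (s i) (s j))| ≤ Ce * (∑ i, |c i|) ^ 2 := by
  obtain ⟨Ce, hCe, hen⟩ := en_pair h hinj hF hp
  have hg := ginv_conf h hinj
  have hr := hF.pos
  refine ⟨Ce, hCe, fun m c s hs hsr => ?_⟩
  have hT : ∀ i, Test P (bb (s i)) := fun i => (bb_bp hF (hs i) (by linarith [hsr i])).test
  rw [en_eq, en_cmb hg c hT, Finset.mul_sum, ← Finset.sum_add_distrib]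
  have e : ∀ i, (∑ j, c i * c j * en (ginv ψ) (bb (s i)) (bb (s j))) +
      1 / Real.pi * ∑ j, c i * c j * Real.log (max (s i) (s j)) =
      ∑ j, c i * c j * (en (ginv ψ) (bb (s i)) (bb (s j)) +
        1 / Real.pi * Real.log (max (s i) (s j))) := by
    intro i
    rw [Finset.mul_sum, ← Finset.sum_add_distrib]
    refine Finset.sum_congr rfl fun j _ => ?_
    ring
  simp only [e]
  have e2 : Ce * (∑ i, |c i|) ^ 2 = ∑ i, ∑ j, |c i| * |c j| * Ce := by
    rw [sq, Finset.sum_mul_sum, Finset.mul_sum]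
    refine Finset.sum_congr rfl fun i _ => ?_
    rw [Finset.mul_sum]
    refine Finset.sum_congr rfl fun j _ => ?_
    ring
  rw [e2]
  refine (Finset.abs_sum_le_sum_abs _ _).trans (Finset.sum_le_sum fun i _ => ?_)
  refine (Finset.abs_sum_le_sum_abs _ _).trans (Finset.sum_le_sum fun j _ => ?_)
  rw [abs_mul, abs_mul]
  exact mul_le_mul_of_nonneg_left (hen _ _ (hs i) (hs j) (hsr i) (hsr j)) (by positivity)

end pair

end Vale.Agent.P167.H167.P
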