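import Vale.Agent.P167.H167.P.Dat
import Vale.Agent.P167.H542.Q.M2
import Vale.Agent.P167.H825.Q.BdQ
import Vale.Agent.P167.H436.ND.Defs

/-!
# P167, general `q`, [S_pow]: the enlargements of the rectangle
-/

namespace Vale.Agent.P167.H167.P

open Finset Filter Vale.Agent.P167 Vale.Agent.P167.BR Vale.Agent.P167.FK
open Vale.Agent.P167.E6 (IsPolygon Encloses)

open Vale.Agent.P167.H542.Q (Bas)
open Vale.Agent.P167.H825.Q (qS tN tN_lt qS_zero)
open Vale.Agent.P167.H436.ND (Win)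

variable {n : ℕ}

theorem mem_D0 (hn : 0 < n) {v : ℤ × ℤ} :
    v ∈ S0.D n ↔ -(n : ℤ) ≤ v.1 ∧ v.1 < n ∧ 0 ≤ v.2 ∧ v.2 < n := by
  have hn' : (0 : ℤ) < n := by exact_mod_cast hn
  show v ∈ CA.enl Q0 n ↔ _
  unfold CA.enl Q0
  simp only [mem_biUnion, mem_insert, mem_singleton, mem_image, mem_product, mem_range, Prod.exists,
    exists_eq_or_imp, exists_eq_left]
  constructor
  · rintro (⟨a, b, ⟨h1, h2⟩, rfl⟩ | ⟨a, b, ⟨h1, h2⟩, rfl⟩)
    · have h1' : (a : ℤ) < n := by exact_mod_cast h1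
      have h2' : (b : ℤ) < n := by exact_mod_cast h2
      refine ⟨?_, ?_, ?_, ?_⟩ <;> push_cast <;> nlinarith
    · have h1' : (a : ℤ) < n := by exact_mod_cast h1
      have h2' : (b : ℤ) < n := by exact_mod_cast h2
      refine ⟨?_, ?_, ?_, ?_⟩ <;> push_cast <;> nlinarith
  · rintro ⟨h1, h2, h3, h4⟩
    rcases lt_or_ge v.1 0 with h | h
    · left
      refine ⟨(v.1 + n).toNat, v.2.toNat, ⟨by omega, by omega⟩, ?_⟩
      ext
      · simp only
        rw [Int.toNat_of_nonneg (by omega)]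
        ring
      · simp only
        rw [Int.toNat_of_nonneg (by omega)]
        ring
    · right
      refine ⟨v.1.toNat, v.2.toNat, ⟨by omega, by omega⟩, ?_⟩
      ext
      · simp only
        rw [Int.toNat_of_nonneg (by omega)]
        ring
      · simp only
        rw [Int.toNat_of_nonneg (by omega)]
        ring

/-- The index of the origin. -/
noncomputable def l0 (n : ℕ) : ℕ := 4 * n - tN S0 n

theorem l0_bd (hn : 0 < n) : 3 * n < l0 n ∧ l0 n ≤ 4 * n := by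
  have := tN_lt S0 hn
  unfold l0
  omega

theorem q_l0 (hn : 0 < n) : qS S0 n (l0 n : ℕ) = 0 := by
  have h1 := tN_lt S0 hn
  have h2 := l0_bd hn
  have e0 : ((l0 n : ℕ) : ZMod (S0.l * n)).val = l0 n := by
    have : l0 n < S0.l * n := by
      show l0 n < 6 * n
      omega
    exact ZMod.val_natCast_of_lt this
  show Enl.PN S0.p n (((l0 n : ℕ) : ZMod (S0.l * n)).val + tN S0 n) = 0
  rw [e0]
  have e1 : l0 n + tN S0 n = 4 * n := by unfold l0; omega
  rw [e1]
  unfold Enl.PN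
  rw [Nat.mul_div_cancel _ hn, Nat.mul_mod_left]
  have e2 : S0.p ((4 : ℕ) : ZMod S0.l) = (0, 0) := rfl
  rw [e2]
  ext <;> simp

theorem q_zero (hn : 0 < n) : (qS S0 n 0).2 = n := by
  rw [qS_zero S0 hn]
  show ((n : ℤ) • p0 0 + (⌊(1 / 2 : ℝ) * n⌋₊ : ℤ) • E6.dir 2).2 = n
  have e1 : p0 0 = (1, 1) := rfl
  have e2 : E6.dir 2 = (-1, 0) := rfl
  rw [e1, e2]
  simp

theorem flt0 (hn : 0 < n) {R : ℤ} (hR : R ≤ n) : Flt (S0.D n) 0 R := by
  intro v h1 h2 h3 h4
  simp only [Prod.fst_zero, Prod.snd_zero, zero_add, zero_sub] at h1 h2 h3 h4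
  rw [mem_D0 hn]
  simp only [Prod.snd_zero]
  omega

theorem win0 (hn : 0 < n) {R : ℤ} (hR1 : 1 ≤ R) (hR : R < n) : Win (qS S0 n) (S0.D n) (l0 n) R := by
  have h2 := l0_bd hn
  refine ⟨Enl.isPolygon_qN hn S0.poly _, Enl.encloses_qN hn S0.poly S0.enc _, ?_, ?_, ?_⟩
  · rw [q_l0 hn]
    exact flt0 hn hR.le
  · show l0 n < 6 * n
    omega
  · rw [q_l0 hn, mem_sites_hbox hR1, q_zero hn]
    simp only [Prod.fst_zero, Prod.snd_zero]
    omega

/-- **A box in the half-plane is a bulk region.** -/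
theorem geo0 (hn : 0 < n) {p : ℤ × ℤ} (hp : Bas (S0.D n) p) {k R : ℤ} {δ : ℝ} (hk : 0 ≤ k)
    (hR : 1 ≤ R) (hδ : δ + 1 ≤ k) (h1 : R + k ≤ n) (h2 : R + k + k ≤ n) :
    H542.Geo (S0.D n) p {z | z ∈ sites (hbox (0, k) R)} δ := by
  have hcc : ∀ a ∈ S0.Q, ∀ b ∈ S0.Q, Relation.ReflTransGen (H436.Adj S0.Q) a b :=
    fun a ha b hb => H436.cells_conn S0.poly S0.enc ha hb
  have hsub : hbox (0, k) R ⊆ S0.D n := by
    intro v hv
    unfold hbox at hv
    rw [mem_product, mem_Icc, mem_Icc] at hv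
    simp only at hv
    rw [mem_D0 hn]
    omega
  have hE : ECon (hbox (0, k) R) := econ_hbox hR
  refine ⟨?_, ?_, ?_, ?_⟩
  · intro z hz z' hz'
    have h0 := hE z hz z' hz'
    clear hz'
    induction h0 with
    | refl => exact Relation.ReflTransGen.refl
    | tail _ h3 ih =>
      refine Relation.ReflTransGen.tail ih ?_
      obtain ⟨e, he, h⟩ := h3
      have h1 := ls_mem_sites he
      have h2 := rs_mem_sites he
      rcases h with ⟨rfl, rfl⟩ | ⟨rfl, rfl⟩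
      · exact ⟨h1, h2, e, eds_mono hsub he, Or.inl ⟨rfl, rfl⟩⟩
      · exact ⟨h2, h1, e, eds_mono hsub he, Or.inr ⟨rfl, rfl⟩⟩
  · intro z hz v hv
    have hz' : z ∈ sites (hbox (0, k) R) := hz
    rw [mem_sites_hbox hR] at hz'
    simp only at hz'
    have h3 : (nm (v - z) : ℝ) ≤ ((k - 1 : ℤ) : ℝ) := by push_cast; linarith
    have h4 : nm (v - z) ≤ k - 1 := by exact_mod_cast h3
    rw [H45.nm_le] at h4
    simp only [Prod.fst_sub, Prod.snd_sub, abs_le] at h4
    rw [mem_D0 hn]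
    omega
  · intro z hz
    exact H436.econ_enl hcc hn z (sites_mono hsub hz) _ hp.mem
  · exact hp.out

end Vale.Agent.P167.H167.P
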