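import Vale.Agent.P167.H167.P.Geo
import Vale.Agent.P167.H167.P.En

/-!
# P167, general `q`, [S_pow]: uniform upper bounds of `V_n` at all scales

`V_bd`: for coefficients `c` with `∑ c = 0` and ratios `l` of scales, `|V_n(∑ c i bb (l i s))| ≤ C` for all small
`s`, eventually in `n`, with `C` independent of `s`.
-/

namespace Vale.Agent.P167.H167.P

open Finset Filter MeasureTheory Vale.Agent.P167 Vale.Agent.P167.BR Vale.Agent.P167.FK
open Vale.Agent.P167.H542 (Chc GC massC norm_GC_le imn)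
open Vale.Agent.P167.H542.Q (Bas BD Ym Ym_mom VQ XQ norm_VQ_le norm_XQ_le thB phs_thB cB cB_pos
  bas_poly)
open Vale.Agent.P167.CA (cms)
open Vale.Agent.P167.BVP (Test)

variable {n : ℕ}

theorem cmb_bb_le {m : ℕ} (c l : Fin m → ℝ) (hl : ∀ i, 0 < l i) {s : ℝ} (hs : 0 < s) (z : ℂ) :
    |cmb c (fun i => bb (l i * s)) z| ≤ (∑ i, |c i| * (10 / l i ^ 2)) / s ^ 2 := by
  unfold cmb
  rw [Finset.sum_div]
  refine (abs_sum_le_sum_abs _ _).trans (sum_le_sum fun i _ => ?_)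
  rw [abs_mul, mul_div_assoc]
  refine mul_le_mul_of_nonneg_left ((bb_le (mul_pos (hl i) hs) z).trans (le_of_eq ?_)) (abs_nonneg _)
  have := (hl i).ne'
  field_simp

theorem test_bb {s : ℝ} (hs : 0 < s) (h : 2 * s < 1) : Test S0.P (bb s) := (bb_bp flat0 hs h).test

theorem cms_cmb {m : ℕ} (c : Fin m → ℝ) {f : Fin m → ℂ → ℝ} (hf : ∀ i, Integrable (f i)) (n : ℕ)
    (z : ℤ × ℤ) : cms (cmb c f) (1 / n) z = ∑ i, c i * cms (f i) (1 / n) z := by
  unfold cms cmb
  rw [integral_finsetSum _ fun i _ => ((hf i).const_mul (c i)).integrableOn]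
  refine sum_congr rfl fun i _ => ?_
  rw [integral_const_mul]

theorem int_cmb {m : ℕ} (c : Fin m → ℝ) {f : Fin m → ℂ → ℝ} (hf : ∀ i, Integrable (f i))
    (h1 : ∀ i, ∫ z, f i z = 1) : ∫ z, cmb c f z = ∑ i, c i := by
  unfold cmb
  rw [integral_finsetSum _ fun i _ => (hf i).const_mul (c i)]
  refine sum_congr rfl fun i _ => ?_
  rw [integral_const_mul, h1, mul_one]

theorem sum_cms0 {f : ℂ → ℝ} (hf : Test S0.P f) (hn : 0 < n) :
    ∑ z ∈ sites (S0.D n), cms f (1 / n) z = ∫ x, f x := by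
  have := CA.sum_cms hn (CA.Test.integrable hf) (fun x hx => CA.Test.mem hf hx) fun _ => 1
  simp only [mul_one] at this
  exact this

/-- **Uniform upper bounds.** -/
theorem V_bd {θ β : ℝ} (h0 : 0 < θ) (h1 : θ ≤ Real.pi / 3) (hβ : Real.cos (θ / 2 + β) = Real.sin θ)
    (hRSW : RSW (2 * Real.cos θ)) (X : BD S0 θ β) {m : ℕ} (c l : Fin m → ℝ) (hl : ∀ i, 0 < l i)
    (hc : ∑ i, c i = 0) :
    ∃ C s0 : ℝ, 0 < C ∧ 0 < s0 ∧ ∀ s : ℝ, 0 < s → s < s0 → ∀ᶠ n : ℕ in X.L,
      |(X.famB h0 h1 hβ).V n (cmb c fun i => bb (l i * s))| ≤ C := by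
  -- the ratios
  obtain ⟨a, ha0, ha1, hal⟩ : ∃ a : ℝ, 0 < a ∧ a ≤ 1 ∧ ∀ i, a ≤ l i := by
    rcases Nat.eq_zero_or_pos m with rfl | hm
    · exact ⟨1, one_pos, le_rfl, fun i => i.elim0⟩
    · have : Nonempty (Fin m) := ⟨⟨0, hm⟩⟩
      obtain ⟨i0, hi0⟩ := Finite.exists_min l
      exact ⟨min (l i0) 1, lt_min (hl i0) one_pos, min_le_right _ _, fun i =>
        (min_le_left _ _).trans (hi0 i)⟩
  obtain ⟨b, hb1, hbl⟩ : ∃ b : ℝ, 1 ≤ b ∧ ∀ i, l i ≤ b := by
    refine ⟨1 + ∑ i, l i, ?_, fun i => ?_⟩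
    · have := sum_nonneg fun i (_ : i ∈ (univ : Finset (Fin m))) => (hl i).le
      linarith
    · have := single_le_sum (fun i _ => (hl i).le) (mem_univ i) (f := l)
      linarith
  -- the constants
  obtain ⟨Cm, hCm0, hCm⟩ : ∃ Cm : ℝ, 0 < Cm ∧ ∑ i, |c i| * (10 / l i ^ 2) ≤ Cm := by
    refine ⟨1 + ∑ i, |c i| * (10 / l i ^ 2), ?_, by linarith⟩
    have : 0 ≤ ∑ i, |c i| * (10 / l i ^ 2) := sum_nonneg fun i _ => by
      have := hl i
      positivity
    linarith
  obtain ⟨κ, hκ, hκa, hκC⟩ : ∃ κ : ℝ, 0 < κ ∧ 40 * κ ≤ a ∧ 2 * (Cm * κ ^ 2) ≤ 1 / 10 := by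
    refine ⟨min (a / 40) (1 / (20 * (Cm + 1))), by positivity, ?_, ?_⟩
    · have := min_le_left (a / 40) (1 / (20 * (Cm + 1)))
      linarith
    · set κ := min (a / 40) (1 / (20 * (Cm + 1))) with hκ
      have h1 : κ ≤ 1 / (20 * (Cm + 1)) := min_le_right _ _
      have h2 : κ ≤ 1 := (min_le_left _ _).trans (by linarith)
      have h3 : 0 < κ := by rw [hκ]; positivity
      have h4 : Cm * κ ≤ 1 / 20 := by
        rw [le_div_iff₀ (by positivity)] at h1
        nlinarith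
      nlinarith
  have hcB := cB_pos h0 h1
  obtain ⟨M, hM1, hM⟩ : ∃ M : ℝ, 1 ≤ M ∧ (cB θ)⁻¹ ≤ M := ⟨max 1 _, le_max_left _ _, le_max_right _ _⟩
  obtain ⟨C, ρ0, hC, hρ0, hmom⟩ := Ym_mom (Q := 2 * Real.cos θ) (m := θ) (R := 8 * b) (q := 1)
    (BD.one_le h0 h1) hRSW h0.le h1 hCm0 hκ (by linarith) (by linarith) zero_le_one hM1
  refine ⟨C, 1 / (16 * b), hC, by positivity, fun s hs hs' => ?_⟩
  rw [lt_div_iff₀ (by positivity)] at hs'
  have hsb : ∀ i, 2 * (l i * s) < 1 := fun i => by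
    have := mul_le_mul_of_nonneg_right (hbl i) hs.le
    nlinarith
  have hls : ∀ i, 0 < l i * s := fun i => mul_pos (hl i) hs
  have hT : ∀ i, Test S0.P (bb (l i * s)) := fun i => test_bb (hls i) (hsb i)
  have hI : ∀ i, Integrable (bb (l i * s)) := fun i => CA.Test.integrable (hT i)
  have ev : ∀ y : ℝ, ∀ᶠ n : ℕ in X.L, y ≤ s * (n : ℝ) := fun y => X.le
    ((tendsto_natCast_atTop_atTop.const_mul_atTop hs).eventually_ge_atTop y)
  filter_upwards [X.poly, X.enc, X.dob, X.le (eventually_gt_atTop 0), ev ρ0, ev (20 / a),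
    ev (20 / κ), ev 20] with n hqn hen hdn hn0 e1 e2 e3 e4
  have hn : (0 : ℝ) < n := by exact_mod_cast hn0
  set ρ : ℝ := s * n with hρ
  have hρp : 0 < ρ := by positivity
  rw [div_le_iff₀ ha0] at e2
  rw [div_le_iff₀ hκ] at e3
  have hsn : 16 * b * ρ ≤ n := by
    rw [hρ]
    have := mul_le_mul_of_nonneg_right hs'.le hn.le
    linarith
  -- the box
  obtain ⟨k, hk⟩ : ∃ k : ℤ, k = ⌊a * ρ⌋ := ⟨_, rfl⟩
  obtain ⟨R, hR⟩ : ∃ R : ℤ, R = ⌈2 * (b * ρ)⌉ := ⟨_, rfl⟩
  have k1 := Int.floor_le (a * ρ)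
  have k2 := Int.lt_floor_add_one (a * ρ)
  have r1 := Int.le_ceil (2 * (b * ρ))
  have r2 := Int.ceil_lt_add_one (2 * (b * ρ))
  rw [← hk] at k1 k2
  rw [← hR] at r1 r2
  have hbρ : ρ ≤ b * ρ := le_mul_of_one_le_left hρp.le hb1
  have haρ : a * ρ ≤ ρ := mul_le_of_le_one_left hρp.le ha1
  have hκρ : 40 * (κ * ρ) ≤ a * ρ := by
    have := mul_le_mul_of_nonneg_right hκa hρp.le
    linarith
  have hk0 : (0 : ℤ) ≤ k := by rw [hk]; exact Int.floor_nonneg.2 (by positivity)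
  have hR1 : (1 : ℤ) ≤ R := by
    have : (0 : ℝ) < R := by linarith
    have h : 0 < R := by exact_mod_cast this
    omega
  have hRk : R + k + k ≤ (n : ℤ) := by
    have : ((R + k + k : ℤ) : ℝ) ≤ ((n : ℤ) : ℝ) := by
      push_cast
      linarith
    exact_mod_cast this
  set K : Set (ℤ × ℤ) := {z | z ∈ sites (hbox (0, k) R)} with hK
  have hbas : Bas (S0.D n) (X.q n 0) := bas_poly hqn hen
  have hG := geo0 hn0 hbas (k := k) (R := R) (δ := 34 * κ * ρ) hk0 hR1 (by linarith) (by omega) hRk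
  -- the charge
  obtain ⟨F, hF⟩ : ∃ F : ℤ × ℤ → ℝ, F = cms (cmb c fun i => bb (l i * s)) (1 / n) := ⟨_, rfl⟩
  have hFz : ∀ z, |F z| ≤ Cm / ρ ^ 2 := by
    intro z
    have h2 := H542.Dt.cms_abs_le (f := cmb c fun i => bb (l i * s)) (M := Cm / s ^ 2) (fun z =>
      (cmb_bb_le c l hl hs z).trans (div_le_div_of_nonneg_right hCm (by positivity))) hn0 z
    rw [hF]
    refine h2.trans (le_of_eq ?_)
    rw [hρ, mul_pow, div_div]
  have hFK : ∀ z, F z ≠ 0 → z ∈ K := by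
    intro z hz
    rw [hF, cms_cmb c hI] at hz
    obtain ⟨i, -, hi⟩ := exists_ne_zero_of_sum_ne_zero hz
    obtain ⟨g1, g2, g3⟩ := lb_box (hls i) hn0 (right_ne_zero_of_mul hi)
    have hlb : l i * s * n ≤ b * ρ := by
      rw [hρ, mul_assoc]
      exact mul_le_mul_of_nonneg_right (hbl i) hρp.le
    have hla : a * ρ ≤ l i * s * n := by
      rw [hρ, mul_assoc]
      exact mul_le_mul_of_nonneg_right (hal i) hρp.le
    rw [hK, Set.mem_ofPred_eq, mem_sites_hbox hR1]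
    rw [abs_le] at g1
    have b1 : (-(R : ℝ)) ≤ z.1 := by linarith
    have b2 : (z.1 : ℝ) ≤ R := by linarith
    have b3 : (k : ℝ) ≤ z.2 := by linarith
    have b4 : (z.2 : ℝ) ≤ k + R := by linarith
    simp only
    refine ⟨?_, ?_, ?_, ?_⟩
    · have : -R ≤ z.1 := by exact_mod_cast b1
      omega
    · have : z.1 ≤ R := by exact_mod_cast b2
      omega
    · exact_mod_cast b3
    · exact_mod_cast b4
  have htot : ∑ z ∈ sites (S0.D n), F z = 0 := by
    rw [hF, sum_cms0 (test_cmb c hT) hn0, int_cmb c hI (fun i => bb_mass (hls i)), hc]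
  have hnK : ∀ z ∈ K, (nm z : ℝ) ≤ 4 * b * ρ + 1 := by
    intro z hz
    rw [hK, Set.mem_ofPred_eq, mem_sites_hbox hR1] at hz
    simp only at hz
    have : nm z ≤ k + R := by
      rw [H45.nm_le, abs_le, abs_le]
      omega
    have h2 : (nm z : ℝ) ≤ ((k + R : ℤ) : ℝ) := by exact_mod_cast this
    push_cast at h2
    linarith
  have hchc : Chc (S0.D n) K (κ * ρ) (8 * b * ρ) (fun z => (F z : ℂ)) := by
    refine ⟨fun z hz => ?_, Or.inl ?_, ?_, ?_⟩
    · by_contra hne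
      exact hz (hFK z fun h => hne (by rw [h, Complex.ofReal_zero]))
    · rw [← Complex.ofReal_sum, htot, Complex.ofReal_zero]
    · refine ⟨(-R, k), ?_, (R, k), ?_, ?_⟩
      · rw [hK, Set.mem_ofPred_eq, mem_sites_hbox hR1]
        simp only
        omega
      · rw [hK, Set.mem_ofPred_eq, mem_sites_hbox hR1]
        simp only
        omega
      · have : (2 * R : ℤ) ≤ nm (((-R, k) : ℤ × ℤ) - (R, k)) := by
          have h2 := (H45.nm_le.1 (le_refl (nm (((-R, k) : ℤ × ℤ) - (R, k))))).1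
          simp only [Prod.fst_sub] at h2
          rw [abs_le] at h2
          omega
        have h2 : ((2 * R : ℤ) : ℝ) ≤ (nm (((-R, k) : ℤ × ℤ) - (R, k)) : ℝ) := by exact_mod_cast this
        push_cast at h2
        linarith
    · intro z hz
      have := hnK z hz
      linarith
  -- the bound
  have hη := hdn.good
  have key := hmom ρ e1 (S0.D n) (X.η n) hη K (fun z hz => by
      have := hnK z hz
      linarith) (fun z hz v hv => hG.nbhd z hz v hv)
    (fun z => (F z : ℂ)) (fun z => by rw [Complex.norm_real]; exact hFz z) (sites (hbox (0, k) R))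
    (fun z hz => by
      by_contra hne
      exact hz (hFK z fun h => hne (by rw [h, Complex.ofReal_zero]))) (fun z hz => hz) (by
      simp only [Complex.ofReal_re]
      rw [← htot]
      refine sum_subset ?_ fun z _ hz => ?_
      · intro z hz
        refine sites_mono ?_ hz
        intro v hv
        unfold hbox at hv
        rw [mem_product, mem_Icc, mem_Icc] at hv
        simp only at hv
        rw [mem_D0 hn0]
        omega
      · by_contra hne
        exact hz (hFK z hne))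
  have hQ0 : 0 < 2 * Real.cos θ := BD.cos_pos h0 h1
  have e5 : (X.famB h0 h1 hβ).V n (cmb c fun i => bb (l i * s)) =
      (VQ (2 * Real.cos θ) (S0.D n) (X.η n) (thB θ β (X.q n) (S0.D n) (X.k n)) (X.q n 0)
        fun z => (F z : ℂ)).re := by
    rw [hF]
    rfl
  rw [e5]
  refine (Complex.abs_re_le_norm _).trans ((norm_VQ_le hQ0 _).trans (le_trans ?_ key))
  refine FKA.Ex_mono hQ0 fun S' _ => ?_
  generalize cf (S0.D n) (X.η n) S' = ω
  rw [Real.rpow_one]
  have hs2 : 0 ≤ κ * ρ := by positivity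
  refine norm_XQ_le (phs_thB h0 h1 hβ) hG hs2 (by linarith) hchc (by
    rw [← Complex.ofReal_sum, htot, Complex.ofReal_zero]) hM1 ?_ ?_
  · have : imn (S0.D n) (fun z => (F z : ℂ)) = 0 := by
      unfold imn
      simp
    rw [this, Real.exp_zero, mul_one]
    exact hM
  · intro ℓ h2 h3
    refine (norm_GC_le (b := Cm / ρ ^ 2) (by positivity) (fun z => by
      rw [Complex.norm_real]; exact hFz z) h2 h3).trans ?_
    have e : Cm / ρ ^ 2 * (κ * ρ) ^ 2 = Cm * κ ^ 2 := by field_simp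
    rw [e]
    exact hκC

end Vale.Agent.P167.H167.P
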