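import Vale.Agent.P167.H167.P.Mb
import Vale.Agent.P167.CAQ.Core

/-!
# P167, general `q`, [S_pow]: the linear functionals `U_n` at all scales

`logV`: `log V_n(f) = - U_n(f) - (s/2) (f, N f) + O(1)`. `U_bd`: for coefficients `c` with `∑ c = 0` and ratios
`l` of scales, `|U_n(∑ c i bb (l i s))| ≤ C` for all small `s`, eventually in `n`, with `C` independent of `s`.
-/

namespace Vale.Agent.P167.H167.P

open Finset Filter Topology MeasureTheory Vale.Agent.P167
open Vale.Agent.P167.FK (RSW)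
open Vale.Agent.P167.H542.Q (BD)
open Vale.Agent.P167.BVP (Test)
open Vale.Agent.P167.CAQ (Fam)
open Vale.Agent.P153.R2.R1 (IsU)
open Vale.Agent.P167.H411.B7 (ginv)

theorem logV {S : CA.Dat} {F : Fam S} (cF : F.CORE) {ψ g : ℂ → ℂ} (hP : CA.Pair S.P ψ g)
    {f : ℂ → ℝ} (hf : S.FF f) : ∀ᶠ n : ℕ in F.L, 0 < F.V n f ∧
      |Real.log (F.V n f) + F.U n f + F.s / 2 * CA.en g f f| ≤ 1 := by
  have h := CAQ.V_ratio cF hP hf
  have h1 := h.eventually (Ioo_mem_nhds (show (1 / 2 : ℝ) < 1 by norm_num) (show (1 : ℝ) < 2 by norm_num))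
  filter_upwards [h1] with n hn
  have he := Real.exp_pos (F.U n f + F.s / 2 * CA.en g f f)
  have hV : 0 < F.V n f := by
    by_contra hcon
    push Not at hcon
    have := mul_nonpos_of_nonpos_of_nonneg hcon he.le
    linarith [hn.1]
  refine ⟨hV, ?_⟩
  have e : Real.log (F.V n f) + F.U n f + F.s / 2 * CA.en g f f =
      Real.log (F.V n f * Real.exp (F.U n f + F.s / 2 * CA.en g f f)) := by
    rw [Real.log_mul hV.ne' he.ne', Real.log_exp]
    ring
  rw [e, abs_le]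
  have l2 := Real.log_two_lt_d9
  constructor
  · have h3 := Real.log_le_log (by norm_num) hn.1.le
    rw [one_div, Real.log_inv] at h3
    linarith
  · have h3 := Real.log_le_log (by positivity) hn.2.le
    linarith

theorem cmb_neg {m : ℕ} (c : Fin m → ℝ) (f : Fin m → ℂ → ℝ) :
    cmb (fun i => -c i) f = fun z => -cmb c f z := by
  funext z
  unfold cmb
  rw [← sum_neg_distrib]
  exact sum_congr rfl fun i _ => by ring

theorem ff_cmb {m : ℕ} (c s : Fin m → ℝ) (hs : ∀ i, 0 < s i) (hs1 : ∀ i, 2 * s i < 1)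
    (hc : ∑ i, c i = 0) : S0.FF (cmb c fun i => bb (s i)) := by
  have hT : ∀ i, Test S0.P (bb (s i)) := fun i => test_bb (hs i) (hs1 i)
  refine ⟨test_cmb c hT, ?_⟩
  rw [int_cmb c (fun i => CA.Test.integrable (hT i)) fun i => bb_mass (hs i), hc]

theorem pair0 {ψ : ℂ → ℂ} (h : IsU ψ S0.P 0 S0.bp) (hinj : Set.InjOn ψ {z | 0 ≤ z.im}) :
    CA.Pair S0.P ψ (ginv ψ) :=
  H411.B7.pair_of_isU h hinj fun ζ hζ => H411.B7.ginv_apply hinj hζ.le

theorem log_max {l l' s : ℝ} (hl : 0 < l) (hs : 0 < s) :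
    Real.log (max (l * s) (l' * s)) = Real.log s + Real.log (max l l') := by
  rw [← max_mul_of_nonneg _ _ hs.le, Real.log_mul (lt_max_of_lt_left hl).ne' hs.ne']
  ring

theorem sum_log {m : ℕ} (c l : Fin m → ℝ) (hl : ∀ i, 0 < l i) {s : ℝ} (hs : 0 < s)
    (hc : ∑ i, c i = 0) : ∑ i, ∑ j, c i * c j * Real.log (max (l i * s) (l j * s)) =
      ∑ i, ∑ j, c i * c j * Real.log (max (l i) (l j)) := by
  have e : ∀ i j, c i * c j * Real.log (max (l i * s) (l j * s)) =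
      c i * c j * Real.log s + c i * c j * Real.log (max (l i) (l j)) := by
    intro i j
    rw [log_max (hl i) hs]
    ring
  simp only [e, sum_add_distrib]
  have e2 : ∑ i, ∑ j, c i * c j * Real.log s = (∑ i, c i) * (∑ j, c j) * Real.log s := by
    rw [sum_mul_sum, sum_mul]
    exact sum_congr rfl fun i _ => by rw [sum_mul]
  rw [e2, hc]
  ring

theorem U_lower {θ β : ℝ} (h0 : 0 < θ) (h1 : θ ≤ Real.pi / 3)
    (hβ : Real.cos (θ / 2 + β) = Real.sin θ) (hRSW : RSW (2 * Real.cos θ)) (X : BD S0 θ β)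
    (cF : (X.famB h0 h1 hβ).CORE) {m : ℕ} (c l : Fin m → ℝ) (hl : ∀ i, 0 < l i)
    (hc : ∑ i, c i = 0) :
    ∃ C s0 : ℝ, 0 < s0 ∧ ∀ s : ℝ, 0 < s → s < s0 → ∀ᶠ n : ℕ in X.L,
      -C ≤ (X.famB h0 h1 hβ).U n (cmb c fun i => bb (l i * s)) := by
  obtain ⟨ψ, hψ, hinj⟩ := exists_psi
  obtain ⟨Ce, hCe, hen⟩ := en_bd hψ hinj flat0 bp0_off
  obtain ⟨C, s1, hC, hs1, hV⟩ := V_bd h0 h1 hβ hRSW X c l hl hc
  obtain ⟨b, hb0, hbl⟩ : ∃ b : ℝ, 0 < b ∧ ∀ i, l i ≤ b := by
    refine ⟨1 + ∑ i, l i, ?_, fun i => ?_⟩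
    · have := sum_nonneg fun i (_ : i ∈ (univ : Finset (Fin m))) => (hl i).le
      linarith
    · have := single_le_sum (fun i _ => (hl i).le) (mem_univ i) (f := l)
      linarith
  set F := X.famB h0 h1 hβ with hF
  have hs0 : 0 ≤ F.s := by
    show 0 ≤ 2 / (Real.pi - θ)
    have := Real.pi_pos
    exact div_nonneg zero_le_two (by linarith)
  set E : ℝ := Ce * (∑ i, |c i|) ^ 2 +
    |1 / Real.pi * ∑ i, ∑ j, c i * c j * Real.log (max (l i) (l j))| with hE
  refine ⟨Real.log C + 1 + F.s / 2 * E, min s1 (1 / (16800 * b)), by positivity, fun s hs hss => ?_⟩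
  have hss1 : s < s1 := hss.trans_le (min_le_left _ _)
  have hss2 : s < 1 / (16800 * b) := hss.trans_le (min_le_right _ _)
  rw [lt_div_iff₀ (by positivity)] at hss2
  have hls : ∀ i, 0 < l i * s := fun i => mul_pos (hl i) hs
  have hlb : ∀ i, l i * s ≤ b * s := fun i => mul_le_mul_of_nonneg_right (hbl i) hs.le
  have hf : S0.FF (cmb c fun i => bb (l i * s)) :=
    ff_cmb c _ hls (fun i => by linarith [hlb i]) hc
  have he := hen m c (fun i => l i * s) hls (fun i => by linarith [hlb i])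
  rw [sum_log c l hl hs hc] at he
  set f := cmb c fun i => bb (l i * s) with hfd
  have hen2 : |CA.en (ginv ψ) f f| ≤ E := by
    have e : CA.en (ginv ψ) f f = (CA.en (ginv ψ) f f +
      1 / Real.pi * ∑ i, ∑ j, c i * c j * Real.log (max (l i) (l j))) -
      1 / Real.pi * ∑ i, ∑ j, c i * c j * Real.log (max (l i) (l j)) := by ring
    rw [e]
    exact (abs_sub _ _).trans (add_le_add he le_rfl)
  filter_upwards [hV s hs hss1, logV cF (pair0 hψ hinj) hf] with n h2 h3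
  obtain ⟨h4, h5⟩ := h3
  have h6 := Real.log_le_log h4 ((le_abs_self _).trans h2)
  have h7 : F.s / 2 * CA.en (ginv ψ) f f ≤ F.s / 2 * E :=
    mul_le_mul_of_nonneg_left ((le_abs_self _).trans hen2) (by linarith)
  rw [abs_le] at h5
  linarith [h5.1]

/-- **The linear functionals are bounded at all scales.** -/
theorem U_bd {θ β : ℝ} (h0 : 0 < θ) (h1 : θ ≤ Real.pi / 3)
    (hβ : Real.cos (θ / 2 + β) = Real.sin θ) (hRSW : RSW (2 * Real.cos θ)) (X : BD S0 θ β)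
    (cF : (X.famB h0 h1 hβ).CORE) {m : ℕ} (c l : Fin m → ℝ) (hl : ∀ i, 0 < l i)
    (hc : ∑ i, c i = 0) :
    ∃ C s0 : ℝ, 0 ≤ C ∧ 0 < s0 ∧ ∀ s : ℝ, 0 < s → s < s0 → ∀ᶠ n : ℕ in X.L,
      |(X.famB h0 h1 hβ).U n (cmb c fun i => bb (l i * s))| ≤ C := by
  obtain ⟨C1, s1, hs1, k1⟩ := U_lower h0 h1 hβ hRSW X cF c l hl hc
  obtain ⟨C2, s2, hs2, k2⟩ := U_lower h0 h1 hβ hRSW X cF (fun i => -c i) l hl (by
    rw [sum_neg_distrib, hc, neg_zero])
  refine ⟨|C1| + |C2|, min s1 s2, by positivity, lt_min hs1 hs2, fun s hs hss => ?_⟩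
  filter_upwards [k1 s hs (hss.trans_le (min_le_left _ _)),
    k2 s hs (hss.trans_le (min_le_right _ _))] with n h2 h3
  rw [cmb_neg, CAQ.U_neg] at h3
  rw [abs_le]
  constructor <;> linarith [le_abs_self C1, le_abs_self C2, abs_nonneg C1, abs_nonneg C2]

end Vale.Agent.P167.H167.P
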